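import Mathlib.Analysis.Complex.Basic
import Mathlib.Topology.Algebra.Module.Basic
import Mathlib.Analysis.Normed.Operator.Bilinear
import Mathlib.Algebra.BigOperators.Field

/-! The algebra behind the Ricci curvature of a Kähler metric. -/

set_option maxSynthPendingDepth 3

namespace Vale.Agent.P264R

open Complex

variable {E : Type} [NormedAddCommGroup E] [NormedSpace ℂ E] {ι : Type} [Fintype ι]

theorem II (v : E) : I • I • v = -v := by rw [smul_smul, I_mul_I, neg_smul, one_smul]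

/-- A Hermitian scalar product with an orthonormal basis `a`. -/
structure Fr (G : E →L[ℝ] E →L[ℝ] ℝ) (a : ι → E) : Prop where
  symm : ∀ u v, G u v = G v u
  herm : ∀ u v, G (I • u) (I • v) = G u v
  exp : ∀ v, ∑ i, G v (a i) • a i = v

variable {G : E →L[ℝ] E →L[ℝ] ℝ} {a : ι → E}

theorem Fr.skew (h : Fr G a) (u v : E) : G (I • u) v = -G u (I • v) := by
  rw [← h.herm u, II, map_neg, neg_neg]

theorem Fr.pars (h : Fr G a) (u v : E) : ∑ i, G u (a i) * G v (a i) = G u v := by
  conv_rhs => rw [← h.exp u]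
  simp only [map_sum, map_smul, sum_apply, smul_apply,
    smul_eq_mul]
  exact Finset.sum_congr rfl fun i _ => by rw [h.symm (a i)]

theorem Fr.ext (h : Fr G a) {u v : E} (huv : ∀ w, G u w = G v w) : u = v := by
  rw [← h.exp u, ← h.exp v]
  exact Finset.sum_congr rfl fun i _ => by rw [huv]

/-- sums over an orthonormal basis are invariant under `J` -/
theorem Fr.sumI (h : Fr G a) (B : E →ₗ[ℝ] E →ₗ[ℝ] ℝ) :
    ∑ i, B (I • a i) (I • a i) = ∑ i, B (a i) (a i) := by
  have h1 : ∀ i, B (I • a i) (I • a i) = ∑ j, G (I • a i) (a j) * B (I • a i) (a j) := fun i => by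
    have h0 := congrArg (B (I • a i)) (h.exp (I • a i))
    rw [map_sum] at h0
    rw [← h0]
    exact Finset.sum_congr rfl fun j _ => by rw [map_smul, smul_eq_mul]
  rw [Finset.sum_congr rfl fun i _ => h1 i, Finset.sum_comm]
  refine Finset.sum_congr rfl fun j _ => ?_
  have h2 : ∑ i, G (I • a i) (a j) • I • a i = a j := by
    have h3 := congrArg (fun v => -(I • v)) (h.exp (I • a j))
    simp only [II, neg_neg, Finset.smul_sum, ← Finset.sum_neg_distrib] at h3
    refine Eq.trans (Finset.sum_congr rfl fun i _ => ?_) h3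
    rw [h.skew (a i), h.symm (a i), neg_smul, smul_comm]
  have h4 := congrArg (fun v => B v (a j)) h2
  simp only [map_sum, LinearMap.sum_apply, map_smul, LinearMap.smul_apply, smul_eq_mul] at h4
  exact h4

/-- first and second derivatives of a Kähler metric, and its Christoffel symbols -/
structure Jet (G : E →L[ℝ] E →L[ℝ] ℝ) (A : E →L[ℝ] E →L[ℝ] E →L[ℝ] ℝ)
    (B : E →L[ℝ] E →L[ℝ] E →L[ℝ] E →L[ℝ] ℝ) (Γ : E → E → E) : Prop where
  As : ∀ s u v, A s u v = A s v u
  chris : ∀ u v w, 2 * G (Γ u v) w = A u v w + A v u w - A w u v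
  par : ∀ u v, Γ u (I • v) = I • Γ u v
  Bs : ∀ r s u v, B r s u v = B r s v u
  Bs' : ∀ r s u v, B r s u v = B s r u v
  BK : ∀ r u v c, B r u v c + B r v u c + B r (I • u) (I • v) c + B r (I • v) (I • u) c
    = 2 * B r c u v

variable {A : E →L[ℝ] E →L[ℝ] E →L[ℝ] ℝ} {B : E →L[ℝ] E →L[ℝ] E →L[ℝ] E →L[ℝ] ℝ}
  {Γ : E → E → E}

theorem Jet.symm (j : Jet G A B Γ) (h : Fr G a) (u v : E) : Γ u v = Γ v u := h.ext fun w => by
  have h1 := j.chris u v w
  have h2 := j.chris v u w
  have h3 := j.As w u v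
  linarith

theorem Jet.par' (j : Jet G A B Γ) (h : Fr G a) (u v : E) : Γ (I • u) v = I • Γ u v := by
  rw [j.symm h, j.par, j.symm h]

theorem Jet.met (j : Jet G A B Γ) (u v w : E) : A u v w = G (Γ u v) w + G (Γ u w) v := by
  have h1 := j.chris u v w
  have h2 := j.chris u w v
  have h3 := j.As u w v
  linarith

/-- the curvature tensor in coordinates -/
noncomputable def rm (G : E →L[ℝ] E →L[ℝ] ℝ) (B : E →L[ℝ] E →L[ℝ] E →L[ℝ] E →L[ℝ] ℝ)
    (Γ : E → E → E) (p q r s : E) : ℝ :=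
  ((B p q r s + B p r q s - B p s q r) / 2 - G (Γ q r) (Γ p s))
    - ((B q p r s + B q r p s - B q s p r) / 2 - G (Γ p r) (Γ q s))

/-- bilinear form attached to a function of two vectors -/
noncomputable def bil (f : E → E → ℝ) (h1 : ∀ x y z, f (x + y) z = f x z + f y z)
    (h2 : ∀ (c : ℝ) x y, f (c • x) y = c * f x y) (h3 : ∀ x y z, f x (y + z) = f x y + f x z)
    (h4 : ∀ (c : ℝ) x y, f x (c • y) = c * f x y) : E →ₗ[ℝ] E →ₗ[ℝ] ℝ :=
  LinearMap.mk₂ ℝ f h1 h2 h3 h4

theorem Jet.tr_gam (j : Jet G A B Γ) (h : Fr G a) (w : E) : ∑ i, G w (Γ (a i) (a i)) = 0 := by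
  have h1 := h.sumI (bil (fun x y => A x y w + A y x w - A w x y)
    (fun x y z => by simp only [map_add, add_apply]; ring)
    (fun c x y => by simp only [map_smul, smul_apply, smul_eq_mul]; ring)
    (fun x y z => by simp only [map_add, add_apply]; ring)
    (fun c x y => by simp only [map_smul, smul_apply, smul_eq_mul]; ring))
  simp only [bil, LinearMap.mk₂_apply, ← j.chris, j.par, j.par' h, II, map_neg,
    neg_apply, mul_neg, Finset.sum_neg_distrib, ← Finset.mul_sum] at h1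
  rw [Finset.sum_congr rfl fun i _ => h.symm w _]
  linarith

theorem Jet.div (j : Jet G A B Γ) (h : Fr G a) (u v : E) :
    2 * ∑ i, B u (a i) (a i) v = ∑ i, B u v (a i) (a i) := by
  have h1 := h.sumI (bil (fun x y => B u x y v)
    (fun x y z => by simp only [map_add, add_apply])
    (fun c x y => by simp only [map_smul, smul_apply, smul_eq_mul])
    (fun x y z => by simp only [map_add, add_apply])
    (fun c x y => by simp only [map_smul, smul_apply, smul_eq_mul]))
  simp only [bil, LinearMap.mk₂_apply] at h1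
  have h2 := Finset.sum_congr rfl fun i (_ : i ∈ Finset.univ) => j.BK u (a i) (a i) v
  simp only [Finset.sum_add_distrib, ← Finset.mul_sum] at h2
  linarith

theorem Jet.lap (j : Jet G A B Γ) (h : Fr G a) (u v : E) :
    2 * ∑ i, B (a i) (a i) u v
      = ∑ i, B u v (a i) (a i) + ∑ i, B (I • u) (I • v) (a i) (a i) := by
  have h2 := Finset.sum_congr rfl fun i (_ : i ∈ Finset.univ) => j.BK (a i) u v (a i)
  have e : ∀ u v, ∑ i, B (a i) u v (a i) = ∑ i, B u (a i) (a i) v := fun u v =>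
    Finset.sum_congr rfl fun i _ => by rw [j.Bs', j.Bs]
  have e' : ∀ u v, ∑ i, B u v (a i) (a i) = ∑ i, B v u (a i) (a i) := fun u v =>
    Finset.sum_congr rfl fun i _ => j.Bs' _ _ _ _
  simp only [Finset.sum_add_distrib, ← Finset.mul_sum, e] at h2
  have h3 := j.div h u v
  have h4 := j.div h v u
  have h5 := j.div h (I • u) (I • v)
  have h6 := j.div h (I • v) (I • u)
  have h7 := e' u v
  have h8 := e' (I • u) (I • v)
  linarith

theorem Jet.sq (j : Jet G A B Γ) (h : Fr G a) (u v : E) :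
    ∑ i, ∑ k, A u (a i) (a k) * A v (a k) (a i)
      + ∑ i, ∑ k, A (I • u) (a i) (a k) * A (I • v) (a k) (a i)
      = 4 * ∑ i, G (Γ u (a i)) (Γ v (a i)) := by
  have h1 : ∀ c, ∑ k, A (I • u) c (a k) * A (I • v) (a k) c
      = ∑ k, (G (Γ u c) (a k) - G (Γ u (a k)) c) * (G (Γ v c) (a k) - G (Γ v (a k)) c) := by
    intro c
    have h2 := h.sumI (bil (fun x y => A (I • u) c x * A (I • v) y c)
      (fun x y z => by simp only [map_add]; ring)
      (fun c x y => by simp only [map_smul, smul_eq_mul]; ring)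
      (fun x y z => by simp only [map_add, add_apply]; ring)
      (fun c x y => by simp only [map_smul, smul_apply, smul_eq_mul]; ring))
    simp only [bil, LinearMap.mk₂_apply] at h2
    rw [← h2]
    refine Finset.sum_congr rfl fun k _ => ?_
    rw [j.met, j.met]
    simp only [j.par, j.par' h, II, map_neg, neg_apply, h.herm]
    ring
  have h3 : ∑ i, ∑ k, G (Γ u (a i)) (a k) * G (Γ v (a i)) (a k)
      = ∑ i, G (Γ u (a i)) (Γ v (a i)) := Finset.sum_congr rfl fun i _ => h.pars _ _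
  have h4 : ∑ i, ∑ k, G (Γ u (a k)) (a i) * G (Γ v (a k)) (a i)
      = ∑ i, G (Γ u (a i)) (Γ v (a i)) := Finset.sum_comm.trans h3
  rw [Finset.sum_congr rfl fun i _ => h1 (a i), ← Finset.sum_add_distrib]
  have h5 : 4 * ∑ i, G (Γ u (a i)) (Γ v (a i))
      = 2 * (∑ i, ∑ k, G (Γ u (a i)) (a k) * G (Γ v (a i)) (a k)
        + ∑ i, ∑ k, G (Γ u (a k)) (a i) * G (Γ v (a k)) (a i)) := by
    rw [h3, h4]
    ring
  rw [h5, ← Finset.sum_add_distrib, Finset.mul_sum]
  refine Finset.sum_congr rfl fun i _ => ?_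
  rw [← Finset.sum_add_distrib, ← Finset.sum_add_distrib, Finset.mul_sum]
  refine Finset.sum_congr rfl fun k _ => ?_
  rw [j.met, j.met v]
  ring

/-- the expression which is the Hessian of `log det` -/
noncomputable def hs (a : ι → E) (A : E →L[ℝ] E →L[ℝ] E →L[ℝ] ℝ)
    (B : E →L[ℝ] E →L[ℝ] E →L[ℝ] E →L[ℝ] ℝ) (u v : E) : ℝ :=
  (∑ i, B u v (a i) (a i) - ∑ i, ∑ k, A u (a i) (a k) * A v (a k) (a i)) / 2

/-- The Ricci curvature of a Kähler metric. -/
theorem Jet.ric (j : Jet G A B Γ) (h : Fr G a) (u v : E) :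
    ∑ i, rm G B Γ (a i) u v (a i) = -((hs a A B u v + hs a A B (I • u) (I • v)) / 2) := by
  have h1 := j.lap h u v
  have h2 := j.sq h u v
  have h3 := j.tr_gam h (Γ u v)
  have h4 := j.div h u v
  have h5 := j.div h v u
  have e1 : ∑ i, B (a i) u v (a i) = ∑ i, B u (a i) v (a i) :=
    Finset.sum_congr rfl fun i _ => j.Bs' _ _ _ _
  have e2 : ∑ i, B (a i) v u (a i) = ∑ i, B v (a i) (a i) u :=
    Finset.sum_congr rfl fun i _ => by rw [j.Bs', j.Bs]
  have e3 : ∑ i, B v u (a i) (a i) = ∑ i, B u v (a i) (a i) :=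
    Finset.sum_congr rfl fun i _ => j.Bs' _ _ _ _
  have e4 : ∑ i, G (Γ (a i) v) (Γ u (a i)) = ∑ i, G (Γ u (a i)) (Γ v (a i)) :=
    Finset.sum_congr rfl fun i _ => by rw [h.symm, j.symm h (a i)]
  simp only [rm, hs, Finset.sum_sub_distrib, Finset.sum_add_distrib, ← Finset.sum_div]
  linarith

end Vale.Agent.P264R
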