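import Vale.Agent.P264R35.Mat

/-! The Ricci curvature of a Kähler metric in coordinates is `-∂∂̄ log det`. -/

set_option maxSynthPendingDepth 3

namespace Vale.Agent.P264R

open Complex Matrix Filter Vale.Agent.P272.K Vale.Agent.P272.K.C2
open scoped Topology ContDiff ComplexOrder

noncomputable section

variable {n : ℕ} {ι : Type} [Fintype ι] {w : Cm n → Matrix (Fin n) (Fin n) ℂ} {z : Cm n}

theorem fderiv_wirt (f : Cm n → ℂ) (y a : Cm n) :
    fderiv ℝ f y a = ∑ l, (a l * dz l f y + star (a l) * dzb l f y) := by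
  conv_lhs => rw [decomp a]
  rw [map_sum]
  refine Finset.sum_congr rfl fun l _ => ?_
  rw [map_add, map_smul, map_smul, real_smul, real_smul, dz, dzb]
  have h1 : star (a l) = (a l).re - (a l).im * I := by
    apply Complex.ext <;> simp
  rw [h1]
  conv_rhs => rw [← re_add_im (a l)]
  simp only [add_re, ofReal_re, mul_re, I_re, mul_zero, ofReal_im, I_im, mul_one, sub_self,
    add_zero, add_im, mul_im, zero_add]
  linear_combination ((a l).im * fderiv ℝ f y (Pi.single l I)) * I_mul_I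

/-- the holomorphic derivative of the metric -/
def tri (w : Cm n → Matrix (Fin n) (Fin n) ℂ) (y u v c : Cm n) : ℂ :=
  ∑ l, ∑ j, ∑ k, u l * v j * star (c k) * dz l (fun x => w x j k) y

theorem tri_I2 (y u v c : Cm n) : tri w y u (I • v) c = I * tri w y u v c := by
  simp only [tri, Finset.mul_sum, Pi.smul_apply, smul_eq_mul]
  exact Finset.sum_congr rfl fun l _ => Finset.sum_congr rfl fun j _ =>
    Finset.sum_congr rfl fun k _ => by ring

theorem tri_I3 (y u v c : Cm n) : tri w y u v (I • c) = -I * tri w y u v c := by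
  simp only [tri, Finset.mul_sum, Pi.smul_apply, smul_eq_mul, star_mul', star_def, conj_I]
  exact Finset.sum_congr rfl fun l _ => Finset.sum_congr rfl fun j _ =>
    Finset.sum_congr rfl fun k _ => by ring

theorem tri_symm (hK : ∀ i j k, dz k (fun y => w y i j) z = dz i (fun y => w y k j) z)
    (u v c : Cm n) : tri w z u v c = tri w z v u c := by
  unfold tri
  rw [Finset.sum_comm]
  exact Finset.sum_congr rfl fun l _ => Finset.sum_congr rfl fun j _ =>
    Finset.sum_congr rfl fun k _ => by rw [hK l k j]; ring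

theorem H_DR (h1 : MD w z) (h2 : ∀ᶠ y in 𝓝 z, (w y).IsHermitian) (u v c : Cm n) :
    H (DR u w z) v c = 2 * ((tri w z u v c).re + (tri w z u c v).re) := by
  have a : ∀ i j k, dzb k (fun y => w y i j) z = star (dz k (fun y => w y j i) z) := by
    intro i j k
    have := congrFun (congrFun (DMb_of_isHermitian (k := k) h1 h2) i) j
    simpa using this
  rw [H_eq, ← conj_re (tri w z u c v), ← add_re]
  congr 2
  simp only [DR, of_apply, DD_eq, fderiv_wirt, a, Finset.mul_sum, mul_add,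
    Finset.sum_add_distrib, tri, map_sum, map_mul, star_def, conj_conj]
  congr 1
  · rw [Finset.sum_congr rfl fun j _ => Finset.sum_comm, Finset.sum_comm]
    exact Finset.sum_congr rfl fun l _ => Finset.sum_congr rfl fun j _ =>
      Finset.sum_congr rfl fun k _ => by ring
  · rw [Finset.sum_comm, Finset.sum_congr rfl fun j _ => Finset.sum_comm, Finset.sum_comm]
    exact Finset.sum_congr rfl fun l _ => Finset.sum_congr rfl fun j _ =>
      Finset.sum_congr rfl fun k _ => by ring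

/-- A Kähler metric near `z`, as a matrix function and as a field of bilinear forms. -/
structure Loc (w : Cm n → Matrix (Fin n) (Fin n) ℂ) (g : Cm n → Cm n →L[ℝ] Cm n →L[ℝ] ℝ)
    (z : Cm n) : Prop where
  sw : MC 2 w z
  sg : ContDiffAt ℝ 2 g z
  pos : ∀ᶠ y in 𝓝 z, (w y).PosDef
  cl : ∀ᶠ y in 𝓝 z, ∀ i j k, dz k (fun y => w y i j) y = dz i (fun y => w y k j) y
  eq : ∀ᶠ y in 𝓝 z, ∀ u v, g y u v = H (w y) u v

variable {g : Cm n → Cm n →L[ℝ] Cm n →L[ℝ] ℝ}

theorem Loc.d1 (h : Loc w g z) : ∀ᶠ y in 𝓝 z, ∀ u a c, fderiv ℝ g y u a c = H (DR u w y) a c := by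
  filter_upwards [h.eq.eventually_nhds, MC.eventually (q := 1) (h.sw.mono (by norm_num)),
    eventually_contDiffAt (m := 1) (h.sg.of_le (by norm_num))] with y h1 h2 h3 u a c
  have h4 : HasFDerivAt (fun y => g y a c) (((fderiv ℝ g y).flip a).flip c) y := by
    simpa using (((h3.differentiableAt (by norm_num)).hasFDerivAt.clm_apply
      (hasFDerivAt_const a y)).clm_apply (hasFDerivAt_const c y))
  have h5 : (fun y => g y a c) =ᶠ[𝓝 y] fun y => H (w y) a c := h1.mono fun x hx => hx a c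
  rw [← fderiv_H (h2.md (by norm_num)), ← h5.fderiv_eq, h4.fderiv]
  rfl

theorem Loc.hd2 (h : Loc w g z) (u a c : Cm n) : HasFDerivAt (fun y => fderiv ℝ g y u a c)
    ((((fderiv ℝ (fderiv ℝ g) z).flip u).flip a).flip c) z := by
  have hd : DifferentiableAt ℝ (fderiv ℝ g) z :=
    (h.sg.fderiv_right (m := 1) (by norm_num)).differentiableAt (by norm_num)
  simpa using ((hd.hasFDerivAt.clm_apply (hasFDerivAt_const u z)).clm_apply
    (hasFDerivAt_const a z)).clm_apply (hasFDerivAt_const c z)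

theorem Loc.d2 (h : Loc w g z) (r u a c : Cm n) :
    fderiv ℝ (fderiv ℝ g) z r u a c = H (DR r (DR u w) z) a c := by
  have h5 : (fun y => fderiv ℝ g y u a c) =ᶠ[𝓝 z] fun y => H (DR u w y) a c :=
    h.d1.mono fun x hx => hx u a c
  rw [← fderiv_H ((MC.DR (m' := 1) h.sw (by norm_num) u).md (by norm_num)), ← h5.fderiv_eq,
    (h.hd2 u a c).fderiv]
  rfl

theorem Loc.t (h : Loc w g z) : ∀ᶠ y in 𝓝 z, (∀ u v c, tri w y u v c = tri w y v u c) ∧
    ∀ u v c, fderiv ℝ g y u v c = 2 * ((tri w y u v c).re + (tri w y u c v).re) := by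
  filter_upwards [h.d1, h.cl, h.pos.eventually_nhds,
    MC.eventually (q := 1) (h.sw.mono (by norm_num))] with y h1 h2 h3 h4
  exact ⟨tri_symm h2, fun u v c => by
    rw [h1, H_DR (h4.md (by norm_num)) (h3.mono fun x hx => hx.isHermitian)]⟩

theorem Loc.jet (h : Loc w g z) {a : ι → Cm n} (f : Fr (g z) a) {Γ : Cm n → Cm n → Cm n}
    (hΓ : ∀ u v c, 2 * g z (Γ u v) c
      = fderiv ℝ g z u v c + fderiv ℝ g z v u c - fderiv ℝ g z c u v) :
    Jet (g z) (fderiv ℝ g z) (fderiv ℝ (fderiv ℝ g) z) Γ := by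
  obtain ⟨t1, t2⟩ := h.t.self_of_nhds
  have k : ∀ u v c, g z (Γ u v) c = 2 * (tri w z u v c).re := fun u v c => by
    have h1 := hΓ u v c
    rw [t2, t2, t2, t1 v u c, t1 c u v, t1 c v u] at h1
    linarith
  refine ⟨fun s u v => by rw [t2, t2, add_comm], hΓ, fun u v => f.ext fun c => ?_,
    fun r s u v => ?_, fun r s u v => ?_, fun r u v c => ?_⟩
  · rw [f.skew, k, k, tri_I2, tri_I3]
    simp
  · have h1 : (fun y => fderiv ℝ g y s u v) =ᶠ[𝓝 z] fun y => fderiv ℝ g y s v u :=
      h.t.mono fun y hy => by simp only [hy.2, add_comm]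
    exact congrArg (fun L => L r) ((h.hd2 s u v).unique ((h.hd2 s v u).congr_of_eventuallyEq h1))
  · rw [(h.sg.isSymmSndFDerivAt (by simp)).eq r s]
  · have h1 : (fun y => fderiv ℝ g y u v c + fderiv ℝ g y v u c
        + fderiv ℝ g y (I • u) (I • v) c + fderiv ℝ g y (I • v) (I • u) c)
        =ᶠ[𝓝 z] fun y => 2 * fderiv ℝ g y c u v := h.t.mono fun y hy => by
      simp only [hy.2, tri_I2, tri_I3]
      rw [hy.1 (I • u), hy.1 (I • u), hy.1 (I • v), hy.1 (I • v), tri_I2, tri_I2, tri_I2, tri_I2,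
        hy.1 v u c, hy.1 u c v, hy.1 v c u]
      simp
      ring
    exact congrArg (fun L => L r) (((((h.hd2 u v c).fun_add (h.hd2 v u c)).fun_add
      (h.hd2 (I • u) (I • v) c)).fun_add (h.hd2 (I • v) (I • u) c)).unique
      (((h.hd2 c u v).const_mul 2).congr_of_eventuallyEq h1))

theorem Loc.logdet (h : Loc w g z) : ContDiffAt ℝ 2 (fun y => Real.log (w y).det.re) z :=
  (reCLM.contDiff.contDiffAt.comp z h.sw.det).log (det_re_pos h.pos.self_of_nhds).ne'

theorem Loc.hs (h : Loc w g z) {a : ι → Cm n} (f : Fr (g z) a) (u v : Cm n) :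
    hs a (fderiv ℝ g z) (fderiv ℝ (fderiv ℝ g) z) u v
      = fderiv ℝ (fderiv ℝ fun y => Real.log (w y).det.re) z u v := by
  have h0 := posDef_det_ne_zero h.pos.self_of_nhds
  have e := h.eq.self_of_nhds
  have h1 := congrArg re (hess_ld h.sw h.pos u v)
  set φ := fun y => Real.log (w y).det.re with hφ
  have h2 : (fun y => fderiv ℝ (ld w) y v) =ᶠ[𝓝 z] fun y => ((fderiv ℝ φ y v : ℝ) : ℂ) := by
    filter_upwards [eventually_contDiffAt (m := 1) (h.logdet.of_le (by norm_num))] with y hy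
    rw [show ld w = ofRealCLM ∘ φ from rfl, (ofRealCLM.hasFDerivAt.comp y
      (hy.differentiableAt (by norm_num)).hasFDerivAt).fderiv]
    rfl
  have hd : DifferentiableAt ℝ (fderiv ℝ φ) z :=
    (h.logdet.fderiv_right (m := 1) (by norm_num)).differentiableAt (by norm_num)
  have h3 : HasFDerivAt (fun y => ((fderiv ℝ φ y v : ℝ) : ℂ))
      (ofRealCLM.comp ((fderiv ℝ (fderiv ℝ φ) z).flip v)) z :=
    ofRealCLM.hasFDerivAt.comp z (by
      simpa using hd.hasFDerivAt.clm_apply (hasFDerivAt_const v z))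
  rw [h2.fderiv_eq, h3.fderiv, sub_re] at h1
  rw [P264R.hs, T2 f e h0 (h.d1.self_of_nhds u) (h.d1.self_of_nhds v),
    Finset.sum_congr rfl fun i _ => h.d2 u v _ _, T1 f e h0]
  have h4 : fderiv ℝ (fderiv ℝ φ) z u v = _ := h1
  rw [h4]
  ring

theorem Loc.ric (h : Loc w g z) {a : ι → Cm n} (f : Fr (g z) a) {Γ : Cm n → Cm n → Cm n}
    (hΓ : ∀ u v c, 2 * g z (Γ u v) c
      = fderiv ℝ g z u v c + fderiv ℝ g z v u c - fderiv ℝ g z c u v) (u v : Cm n) :
    ∑ i, rm (g z) (fderiv ℝ (fderiv ℝ g) z) Γ (a i) u v (a i)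
      = H (-cHess (fun y => Real.log (w y).det.re) z) u v := by
  rw [(h.jet f hΓ).ric f, h.hs f, h.hs f, ← H_cHess h.logdet, H, H, neg_mulVec, dotProduct_neg,
    neg_re, mul_neg]

end

end Vale.Agent.P264R
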