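import Vale.Agent.P264R35.Coord
import Vale.Agent.P264R35.Loc
import Vale.Agent.P264T9.Top
import Vale.Agent.P205.H599.Ext
import Mathlib.Analysis.Calculus.ContDiff.FiniteDimension
import Mathlib.Geometry.Manifold.MFDeriv.Tangent

/-! The Ricci form of a Kähler form is the Ricci form of its Riemannian metric. -/

set_option maxSynthPendingDepth 3
set_option linter.unusedSectionVars false

namespace Vale.Agent.P264R

open scoped Manifold ContDiff Topology ComplexOrder
open Bundle Filter IsManifold Complex Vale.Agent.P211 Vale.Agent.P211Z Vale.Agent.P264F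
open Vale.Agent.P272.K (Cm Chart cHess)

noncomputable section

variable {n : ℕ}

/-- the bilinear form `α(u, J v)` -/
def bilOf (α : Two n) : Cm n →L[ℝ] Cm n →L[ℝ] ℝ :=
  LinearMap.toContinuousLinearMap (LinearMap.toContinuousLinearMap.toLinearMap ∘ₗ
    LinearMap.mk₂ ℝ (fun u v : Cm n => α ![u, I • v]) (fun _ _ _ => two_add ..)
      (fun _ _ _ => two_smul ..) (fun _ _ _ => by rw [smul_add, two_add'])
      fun c u v => by rw [smul_comm, two_smul', smul_eq_mul])

theorem bilOf_apply (α : Two n) (u v : Cm n) : bilOf α u v = α ![u, I • v] := rfl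

theorem bilOf_eq {α : Two n} (h : Inv α) (u v : Cm n) : bilOf α u v = H (mat α) u v := by
  rw [bilOf_apply, apply_I_eq_hf, h.hf_eq, H_eq]
  congr 2
  exact Finset.sum_congr rfl fun j _ => Finset.sum_congr rfl fun k _ => mul_comm _ _

theorem bilOf_symm {α : Two n} (h : Inv α) (u v : Cm n) : bilOf α u v = bilOf α v u := by
  rw [bilOf_apply, bilOf_apply, two_swap, h.left, neg_neg]

variable {X : Type} [TopologicalSpace X] [T2Space X] [ChartedSpace (Cm n) X]
  [IsManifold 𝓘(ℂ, Cm n) ω X] [IsManifold 𝓘(ℝ, Cm n) ∞ X] {e : Chart n X} {z : Cm n} {x : X}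
  {w : Form n X}

theorem symm_J (he : e ∈ atlas (Cm n) X) (hz : z ∈ e.target) (v : Cm n) :
    dm (Cm n) e.symm z (I • v : Cm n) = J (dm (Cm n) e.symm z v) := by
  have h : MDifferentiableAt 𝓘(ℂ, Cm n) 𝓘(ℂ, Cm n) e.symm z :=
    ((contMDiffOn_symm_of_mem_maximalAtlas (n := ω) (subset_maximalAtlas he)).contMDiffAt
      (e.open_target.mem_nhds hz)).mdifferentiableAt (by simp)
  let L : Cm n →L[ℂ] Cm n := mfderiv 𝓘(ℂ, Cm n) 𝓘(ℂ, Cm n) e.symm z
  have h1 : HasMFDerivAt 𝓘(ℂ, Cm n) 𝓘(ℂ, Cm n) e.symm z L := h.hasMFDerivAt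
  have h2 : HasMFDerivAt 𝓘(ℝ, Cm n) 𝓘(ℝ, Cm n) e.symm z (L.restrictScalars ℝ) :=
    ⟨h1.1, HasFDerivWithinAt.restrictScalars ℝ h1.2⟩
  have h3 : ∀ u : Cm n, dm (Cm n) e.symm z u = L u := fun u => by
    unfold dm
    rw [h2.mfderiv]
    rfl
  rw [h3, h3]
  exact L.map_smul I v

theorem inv_loc (hw : IsKahler w) (he : e ∈ atlas (Cm n) X) (hz : z ∈ e.target) :
    Inv (loc w e z) :=
  Inv.comp (α := w (e.symm z)) (hw.inv _) (symm_J he hz)

theorem loc_cf (he : e ∈ atlas (Cm n) X) (hx : x ∈ e.source) (u v : Cm n) :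
    loc w e (e x) ![u, v] = w x ![cf e u x, cf e v x] := by
  have h : ∀ y, y = x → w x ![cf e u x, cf e v x] = w y ![cf e u y, cf e v y] := by
    rintro y rfl
    rfl
  rw [h _ (e.left_inv hx), cf_symm (subset_maximalAtlas he) (e.map_source hx),
    cf_symm (subset_maximalAtlas he) (e.map_source hx)]
  exact comp_apply _ _ _ _

theorem cf_I (he : e ∈ atlas (Cm n) X) (hx : x ∈ e.source) (v : Cm n) :
    cf e (I • v) x = J (cf e v x) := by
  have h : ∀ y, y = x → cf e (I • v) y = J (cf e v y) → cf e (I • v) x = J (cf e v x) := by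
    rintro y rfl h
    exact h
  refine h _ (e.left_inv hx) ?_
  rw [cf_symm (subset_maximalAtlas he) (e.map_source hx),
    cf_symm (subset_maximalAtlas he) (e.map_source hx), symm_J he (e.map_source hx)]

theorem cf_self (x : X) (u : Cm n) : cf (chartAt (Cm n) x) u x = u := by
  have h : dm (Cm n) (chartAt (Cm n) x) x u = u := by
    exact (congrArg (fun L : Cm n →L[ℝ] Cm n => L u) (mfderiv_chartAt_eq_tangentCoordChange
      (I := 𝓘(ℝ, Cm n)) (mem_chart_source _ x))).trans
      (tangentCoordChange_self (mem_extChartAt_source x))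
  have h2 := cf_dif (chart_mem_maximalAtlas x) (mem_chart_source _ x) (x := x) (E := Cm n) u
  rwa [h] at h2

theorem loc_self (w : Form n X) (x : X) :
    loc w (chartAt (Cm n) x) (chartAt (Cm n) x x) = w x := two_ext fun u v => by
  rw [loc_cf (chart_mem_atlas _ x) (mem_chart_source _ x), cf_self, cf_self]
  rfl

theorem sm_bil (hw : IsKahler w) (he : e ∈ atlas (Cm n) X) :
    ContDiffOn ℝ ∞ (fun y => bilOf (loc w e y)) e.target :=
  contDiffOn_clm_apply.2 fun u => contDiffOn_clm_apply.2 fun v =>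
    (ContinuousAlternatingMap.apply ℝ (Cm n) ℝ ![u, I • v]).contDiff.comp_contDiffOn
      (hw.smooth e he)

theorem pd_loc (hw : IsKahler w) (he : e ∈ atlas (Cm n) X) (hz : z ∈ e.target) :
    (mat (loc w e z)).PosDef := by
  refine (inv_loc hw he hz).posDef_iff.2 fun v hv => ?_
  have hx := e.map_target hz
  have h := loc_cf (w := w) he hx v (I • v)
  rw [e.right_inv hz, cf_I he hx] at h
  rw [h]
  refine hw.pos _ _ fun h0 => hv ?_
  rw [← dif_cf (subset_maximalAtlas he) hx v, h0, map_zero]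
  rfl

theorem loc_loc (hw : IsKahler w) (he : e ∈ atlas (Cm n) X) (hz : z ∈ e.target) :
    Loc (fun y => mat (loc w e y)) (fun y => bilOf (loc w e y)) z := by
  have hn := e.open_target.mem_nhds hz
  refine ⟨fun j k => (contDiffAt_mat ((hw.smooth e he).contDiffAt hn) j k).of_le (by norm_cast),
    ((sm_bil hw he).contDiffAt hn).of_le (by norm_cast), ?_, ?_, ?_⟩
  · filter_upwards [hn] with y hy using pd_loc hw he hy
  · filter_upwards [hn] with y hy
    have hy' := e.open_target.mem_nhds hy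
    refine (closed_iff (((hw.smooth e he).contDiffAt hy').differentiableAt (by simp)) ?_).1
      (hw.closed e he y hy)
    filter_upwards [hy'] with t ht using inv_loc hw he ht
  · filter_upwards [hn] with y hy using bilOf_eq (inv_loc hw he hy)

theorem triv_symm (a : X) (hx : x ∈ (chartAt (Cm n) a).source) (v : Cm n) :
    (trivializationAt (Cm n) (TangentSpace 𝓘(ℝ, Cm n)) a).symm x v
      = cf (chartAt (Cm n) a) v x := by
  let t := trivializationAt (Cm n) (TangentSpace 𝓘(ℝ, Cm n) : X → Type) a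
  apply dif_inj (chart_mem_maximalAtlas a) hx
  rw [dif_cf (chart_mem_maximalAtlas a) hx]
  have h3 := congrArg (fun L => L (t.symm x v))
    (TangentBundle.continuousLinearMapAt_trivializationAt (I := 𝓘(ℝ, Cm n)) hx)
  refine h3.symm.trans ?_
  rw [← t.symmL_apply (R := ℝ) hx v]
  exact t.continuousLinearMapAt_symmL (R := ℝ) hx v

/-- the scalar product on the tangent space -/
def gT (w : Form n X) (x : X) : Tg (Cm n) x →L[ℝ] Tg (Cm n) x →L[ℝ] ℝ := bilOf (w x)

/-- the Riemannian metric of a Kähler form -/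
def met (hw : IsKahler w) : ContMDiffRiemannianMetric 𝓘(ℝ, Cm n) ∞ (Cm n) (Tg (Cm n) : X → Type) where
  inner := gT w
  symm x := bilOf_symm (α := w x) (hw.inv x)
  pos x := hw.pos x
  isVonNBounded x := P205.H599.bdd_of_pos (E := Cm n) (bilOf (w x)) (hw.pos x)
  contMDiff := by
    intro a
    refine (Bundle.contMDiffAt_section (s := gT w) a).2 ?_
    have hs := (chartAt (Cm n) a).open_source.mem_nhds (mem_chart_source _ a)
    have h1 : ContMDiffAt 𝓘(ℝ, Cm n) 𝓘(ℝ, Cm n →L[ℝ] Cm n →L[ℝ] ℝ) ∞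
        (fun x => bilOf (loc w (chartAt (Cm n) a) (chartAt (Cm n) a x))) a :=
      (((sm_bil hw (chart_mem_atlas _ a)).contDiffAt
        ((chartAt (Cm n) a).open_target.mem_nhds (mem_chart_target _ a))).contMDiffAt).comp a
        ((contMDiffOn_chart (I := 𝓘(ℝ, Cm n)) (n := ∞) (x := a)).contMDiffAt hs)
    refine h1.congr_of_eventuallyEq ?_
    filter_upwards [hs] with x hx
    ext v u
    have h := inCoordinates_apply_eq₂ (𝕜 := ℝ) (E₁ := fun x : X => TangentSpace 𝓘(ℝ, Cm n) x)
      (E₂ := fun x : X => TangentSpace 𝓘(ℝ, Cm n) x) (E₃ := Bundle.Trivial X ℝ) (F₁ := Cm n)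
      (F₂ := Cm n) (F₃ := ℝ) (x₀ := a) (x := x) (ϕ := gT w x) (v := v) (w := u) hx hx
      (Set.mem_univ _)
    refine h.trans ((congrArg (fun L : ℝ →ₗ[ℝ] ℝ => L _)
      (Bundle.Trivial.linearMapAt_trivialization (𝕜 := ℝ) (B := X) (F := ℝ) x)).trans ?_)
    rw [triv_symm a hx, triv_symm a hx, bilOf_apply, loc_cf (chart_mem_atlas _ a) hx, cf_I (chart_mem_atlas _ a) hx]
    rfl

theorem mat_ric (hw : IsKahler w) (x : X) : Inv (ric w x) ∧ mat (ric w x) =
    -cHess (fun y => Real.log (mat (loc w (chartAt (Cm n) x) y)).det.re) (chartAt (Cm n) x x) := by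
  obtain ⟨c, hc, ht⟩ := top_eq n
  have he := chart_mem_atlas (Cm n) x
  have hz := mem_chart_target (Cm n) x
  have hl := (loc_loc hw he hz).logdet
  have h1 : (fun y => Real.log (top (loc w (chartAt (Cm n) x) y))) =ᶠ[𝓝 (chartAt (Cm n) x x)]
      fun y => Real.log c + Real.log (mat (loc w (chartAt (Cm n) x) y)).det.re := by
    filter_upwards [(chartAt (Cm n) x).open_target.mem_nhds hz] with y hy
    rw [ht _ (inv_loc hw he hy) (pd_loc hw he hy),
      Real.log_mul hc.ne' (P272.K.C2.det_re_pos (pd_loc hw he hy)).ne']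
  have h2 := (contDiffAt_const (c := Real.log c)).add hl
  have h3 : (ric w x : Two n) = -ddb _ _ := congrArg Neg.neg (ddb_congr h1)
  rw [h3, mat_neg, mat_ddb h2, P272.K.C2.cHess_add contDiffAt_const hl, P272.K.C2.cHess_const,
    zero_add]
  exact ⟨(inv_ddb h2).neg, rfl⟩

theorem ricciEq [Met (Cm n) X] [SmoothMet (Cm n) X] (hw : IsKahler w) (hg : IsMetricOf w)
    {cov : Conn (Cm n) X} (h : IsLeviCivita cov) {R : Four (Cm n) X} (hR : IsCurv cov R) :
    RicciEq w R := by
  intro x ι _ b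
  have he := chart_mem_atlas (Cm n) x
  have hx := mem_chart_source (Cm n) x
  have hz := mem_chart_target (Cm n) x
  have c : InCh (chartAt (Cm n) x) fun y => bilOf (loc w (chartAt (Cm n) x) y) :=
    ⟨chart_mem_maximalAtlas x, sm_bil hw he, fun y hy u v => by
      rw [hg, bilOf_apply, loc_cf he hy, cf_I he hy]⟩
  have L := loc_loc hw he hz
  have e0 : ∀ u v : Tan n x, bilOf (loc w (chartAt (Cm n) x) (chartAt (Cm n) x x)) u v
      = inner ℝ u v := fun u v => by
    rw [loc_self, hg]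
    rfl
  have hi := inv_loc hw he hz
  have f : Fr (bilOf (loc w (chartAt (Cm n) x) (chartAt (Cm n) x x))) fun i => (b i : Cm n) :=
    ⟨bilOf_symm hi, fun u v => hi u (I • v), fun v => by
      refine Eq.trans (Finset.sum_congr rfl fun i _ => ?_) (b.sum_repr' v)
      exact congrArg (fun c : ℝ => c • b i) ((e0 v (b i)).trans (real_inner_comm _ _))⟩
  obtain ⟨r1, r2⟩ := mat_ric hw x
  have key : ∀ u v : Cm n, ricci b (R x) u v = H (mat (ric w x)) u v := fun u v => by
    rw [r2, ← L.ric f (c.chris h hx) u v]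
    refine Finset.sum_congr rfl fun i _ => ?_
    have h1 := c.rm_eq h hR hx (b i) u v (b i)
    rw [cf_self x u, cf_self x v, cf_self x (b i)] at h1
    exact h1
  refine ⟨fun u v => ?_, ?_⟩
  · exact (r1 u v).symm.trans ((bilOf_eq r1 (J u) v).trans (key (J u) v).symm)
  · have h2 := T1 f (bilOf_eq hi) (P272.K.C2.posDef_det_ne_zero (pd_loc hw he hz)) (mat (ric w x))
    rw [loc_self] at h2
    unfold scalar
    rw [Finset.sum_congr rfl fun j _ => key (b j) (b j), h2, mul_div_cancel_left₀ _ two_ne_zero]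
    rfl

theorem riemannian (hw : IsKahler w) : Riemannian w :=
  ⟨⟨⟨(met hw).toRiemannianMetric⟩, inferInstance, fun _ _ _ => rfl⟩, fun hg =>
    ⟨exists_lc, fun _ h => ⟨curv_exu h, fun _ hR => ricciEq hw hg h hR⟩⟩⟩

end

end Vale.Agent.P264R
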