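import Vale.Agent.P264R35.St
import Vale.Agent.P264R35.Main
import Vale.Agent.P264F72.Rows

/-! The short definitions `P264S` agree with the working definitions `P264F`, `P264R`. -/

set_option linter.unusedSectionVars false

open scoped Manifold ContDiff

namespace Vale.Agent.P264S

open Vale.Agent.P272.K (Cm)

variable {n : ℕ} {X : Type} [TopologicalSpace X] [ChartedSpace (Cm n) X] {w : Form (Cm n) X}

theorem kahler_iff : IsKahler w ↔ P264F.IsKahler (n := n) w :=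
  ⟨fun h => ⟨h.1, h.2, h.3, h.4⟩, fun h => ⟨h.1, h.2, h.3, h.4⟩⟩

theorem pert_eq (u : X → ℝ) :
    pert w u = (show P264F.Form n X from w) + P264F.ddbar n u := rfl

theorem ric_eq : ric w = P264F.ric (n := n) w := rfl

theorem scal_eq : scal w = P264F.scal (n := n) w := rfl

theorem avg_iff {s : ℝ} : IsAvg w s ↔ P264F.IsAvg (n := n) w s := Iff.rfl

theorem smooth_iff {u : X → ℝ} : Smooth (Cm n) u ↔ P264F.Smooth n u := Iff.rfl

theorem flow_iff {s : ℝ} {T : ENNReal} {φ : ℝ → X → ℝ} :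
    IsFlow w s T φ ↔ P264F.IsFlow (n := n) w s T φ :=
  ⟨fun h => ⟨h.1, h.2, fun t ht => kahler_iff.1 (h.3 t ht), h.4⟩,
    fun h => ⟨h.1, h.2, fun t ht => kahler_iff.2 (h.3 t ht), h.4⟩⟩

theorem max_iff {s : ℝ} {T : ENNReal} {φ : ℝ → X → ℝ} :
    IsMaximal w s T φ ↔ P264F.IsMaximal (n := n) w s T φ :=
  ⟨fun h => ⟨flow_iff.1 h.1, fun T' ψ h' => h.2 T' ψ (flow_iff.2 h')⟩,
    fun h => ⟨flow_iff.2 h.1, fun T' ψ h' => h.2 T' ψ (flow_iff.1 h')⟩⟩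

theorem charts_of (h : P264F.Charts n X) : Charts n X := fun e he z hz =>
  ⟨⟨(h e he z hz).1, (h e he z hz).2.1⟩, fun w hw => (h e he z hz).2.2 w (kahler_iff.1 hw)⟩

theorem lc_iff [RealSmooth (Cm n) X] [m : Met (Cm n) X] [s : SmoothMet (Cm n) X]
    {cov : Conn (Cm n) X} : IsLeviCivita cov ↔ @P264R.IsLeviCivita (Cm n) _ _ X _ _
      ‹RealSmooth (Cm n) X› m _ s cov :=
  ⟨fun h => @P264R.IsLeviCivita.mk (Cm n) _ _ X _ _ ‹RealSmooth (Cm n) X› m _ s cov h.1 h.2 h.3,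
    fun h => ⟨h.1, h.2, h.3⟩⟩

theorem riem_of [r : RealSmooth (Cm n) X] (h : @P264R.Riemannian n X _ _ r w) :
    Riemannian w (ric w) (scal w) := by
  refine ⟨h.1, fun {m s} hg => ?_⟩
  obtain ⟨⟨c, hc⟩, h2⟩ := @h.2 m s hg
  refine ⟨⟨c, lc_iff.2 hc⟩, fun cov hcov => ⟨(h2 cov (lc_iff.1 hcov)).1, fun R hR x ι _ b a ha => ?_⟩⟩
  subst ha
  exact (h2 cov (lc_iff.1 hcov)).2 R hR x ι b

theorem final (h : P264Z.NoGlobal 10) :
    ForAll (fun n X _ _ => ∃ _ : RealSmooth (Cm n) X, Charts n X ∧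
      ∀ w : Form (Cm n) X, IsKahler w → Riemannian w (ric w) (scal w) ∧ (∃! s, IsAvg w s) ∧
      (∀ u, Smooth (Cm n) u → IsKahler (pert w u) → ∀ s, IsAvg (pert w u) s ↔ IsAvg w s) ∧
      ∀ s, ∃! T, ∃ φ, IsMaximal w s T φ) ∧
    ¬ ForAll (fun n X _ _ => ∀ (w : Form (Cm n) X) s T φ, IsKahler w → IsAvg w s →
      IsMaximal w s T φ → T = ⊤) ∧
    ∃ (X : Type) (_ : TopologicalSpace X) (_ : T2Space X) (_ : CompactSpace X)
      (_ : ConnectedSpace X) (_ : ChartedSpace (Cm 10) X) (_ : IsManifold 𝓘(ℂ, Cm 10) ω X)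
      (w : Form (Cm 10) X) (s : ℝ) (T : ENNReal) (φ : ℝ → X → ℝ) (u : X → ℝ),
      IsKahler w ∧ IsAvg w s ∧ IsMaximal w s T φ ∧ T ≤ 1 ∧ Smooth (Cm 10) u ∧
      IsKahler (pert w u) ∧ (∀ x, scal (pert w u) x = s) ∧
      IsMaximal (pert w u) s ⊤ fun _ _ => 0 := by
  refine ⟨fun n X _ _ _ _ _ _ => ?_, fun H => P264F.part2 P264F.rows h
    fun n X _ _ _ _ _ _ w s T φ h1 h2 h3 => H n X w s T φ (kahler_iff.2 h1) h2 (max_iff.2 h3), ?_⟩
  · obtain ⟨r, h1, h2⟩ := P264F.part1 P264F.rows n X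
    refine ⟨r, charts_of h1, fun w hw => ?_⟩
    obtain ⟨h3, h4, h5⟩ := h2 w (kahler_iff.1 hw)
    refine ⟨@riem_of n X _ _ w r (P264R.riemannian (kahler_iff.1 hw)), h3,
      fun u hu hk s => h4 u hu (kahler_iff.1 hk) s, fun s => ?_⟩
    simpa only [max_iff] using h5 s
  · obtain ⟨X, i1, i2, i3, i4, i5, i6, w, s, T, φ, u, h1, h2, h3, h4, h5, h6, h7, h8⟩ :=
      P264F.part3 P264F.rows h
    exact ⟨X, i1, i2, i3, i4, i5, i6, w, s, T, φ, u, kahler_iff.2 h1, h2, max_iff.2 h3, h4, h5,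
      kahler_iff.2 h6, h7, max_iff.2 h8⟩

end Vale.Agent.P264S
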