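import Vale.Agent.P264R35.Defs
import Vale.Agent.P264R35.Alg
import Vale.Agent.P211W98.LC

/-! The curvature tensor of the Levi-Civita connection in a chart (after `P253K97`). -/

set_option maxSynthPendingDepth 3
set_option linter.unusedSectionVars false

namespace Vale.Agent.P264R

open scoped Manifold ContDiff Topology
open Bundle Filter VectorField IsManifold Vale.Agent.P211 Vale.Agent.P211.NN Vale.Agent.P211Z

noncomputable section

variable {E : Type} [NormedAddCommGroup E] [NormedSpace ℝ E] [FiniteDimensional ℝ E]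
  {M : Type} [TopologicalSpace M] [T2Space M] [ChartedSpace E M] [IsManifold 𝓘(ℝ, E) ∞ M]
  {e : OpenPartialHomeomorph M E} {x : M} {z : E}

/-- the constant field -/
def kf (v : E) : Field E E := fun _ => v

/-- the coordinate field -/
def cf (e : OpenPartialHomeomorph M E) (v : E) : Field E M := pull e (kf v)

theorem ld' (he : e ∈ maximalAtlas 𝓘(ℝ, E) ∞ M) (hx : x ∈ e.source) :
    IsLocalDiffeomorphAt 𝓘(ℝ, E) 𝓘(ℝ, E) ∞ e x :=
  ⟨⟨e.toPartialEquiv, e.open_source, e.open_target, contMDiffOn_of_mem_maximalAtlas he,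
    contMDiffOn_symm_of_mem_maximalAtlas he⟩, hx, fun _ _ => rfl⟩

theorem sm_const (v z : E) : Sm (kf v) z :=
  (contMDiff_vectorSpace_iff_contDiff (V := fun z : E => (v : TangentSpace 𝓘(ℝ, E) z))).2
    contDiff_const z

theorem sm_cf (he : e ∈ maximalAtlas 𝓘(ℝ, E) ∞ M) (hx : x ∈ e.source) (v : E) :
    Sm (cf e v) x := Sm.pull (ld' he hx) (sm_const v _)

theorem dif_cf (he : e ∈ maximalAtlas 𝓘(ℝ, E) ∞ M) (hx : x ∈ e.source) (v : E) :
    dm E e x (cf e v x) = v := dm_pull (ld' he hx) (kf v)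

theorem dif_inj (he : e ∈ maximalAtlas 𝓘(ℝ, E) ∞ M) (hx : x ∈ e.source) :
    Function.Injective (dm E e x) := (inv_of_ld (ld' he hx)).injective

theorem cf_dif (he : e ∈ maximalAtlas 𝓘(ℝ, E) ∞ M) (hx : x ∈ e.source) (w : Tg E x) :
    cf e (dm E e x w) x = w := dif_inj he hx (dif_cf he hx _)

theorem cf_symm (he : e ∈ maximalAtlas 𝓘(ℝ, E) ∞ M) (hz : z ∈ e.target) (v : E) :
    cf e v (e.symm z) = dm E e.symm z v := by
  have hm : e.MDifferentiable 𝓘(ℝ, E) 𝓘(ℝ, E) :=
    ⟨(contMDiffOn_of_mem_maximalAtlas he).mdifferentiableOn (by simp),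
      (contMDiffOn_symm_of_mem_maximalAtlas he).mdifferentiableOn (by simp)⟩
  apply dif_inj he (e.map_target hz)
  rw [dif_cf he (e.map_target hz)]
  exact (congrArg (fun T => T v) (hm.comp_symm_deriv hz)).symm

theorem cf_bracket (he : e ∈ maximalAtlas 𝓘(ℝ, E) ∞ M) (hx : x ∈ e.source) (u v : E) :
    mlieBracket 𝓘(ℝ, E) (cf e u) (cf e v) x = 0 := by
  unfold cf
  rw [pull_bracket (ld' he hx) (sm_const u _).md (sm_const v _).md]
  have h : mlieBracket 𝓘(ℝ, E) (kf u) (kf v) (e x) = 0 := by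
    rw [← mlieBracketWithin_univ, mlieBracketWithin_eq_lieBracketWithin]
    change fderivWithin ℝ (fun _ : E => v) Set.univ (e x) u
      - fderivWithin ℝ (fun _ : E => u) Set.univ (e x) v = 0
    simp
  change (dm E e x).inverse (mlieBracket 𝓘(ℝ, E) (kf u) (kf v) (e x)) = 0
  rw [h, map_zero]

theorem d_cf (he : e ∈ maximalAtlas 𝓘(ℝ, E) ∞ M) (hx : x ∈ e.source) {f : M → ℝ} {g : E → ℝ}
    {L : E →L[ℝ] ℝ} (hg : HasFDerivAt g L (e x)) (h : ∀ᶠ y in 𝓝 x, f y = g (e y)) (u : E) :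
    mvfderiv 𝓘(ℝ, E) f x (cf e u x) = L u := by
  have h1 : HasMFDerivAt 𝓘(ℝ, E) 𝓘(ℝ) (g ∘ e) x (L.comp (dm E e x)) :=
    hg.hasMFDerivAt.comp x ((ld' he hx).mdifferentiableAt (by simp)).hasMFDerivAt
  have h2 : HasMFDerivAt 𝓘(ℝ, E) 𝓘(ℝ) f x (L.comp (dm E e x)) := h1.congr_of_eventuallyEq h
  have h3 : mvfderiv 𝓘(ℝ, E) f x (cf e u x) = L (dm E e x (cf e u x)) := by
    unfold mvfderiv
    rw [h2.mfderiv]
    rfl
  rw [h3, dif_cf he hx]

theorem exists_cf (he : e ∈ maximalAtlas 𝓘(ℝ, E) ∞ M) (hx : x ∈ e.source) (v : E) :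
    ∃ S : Vec E M, ∀ᶠ y in 𝓝 x, S y = cf e v y :=
  cut_section (E := E) (e.open_source.mem_nhds hx) fun _ hy => (sm_cf he hy v).contMDiffWithinAt

variable [Met E M] [SmoothMet E M] {cov : Conn E M} {g : E → E →L[ℝ] E →L[ℝ] ℝ}

theorem cov_congr {X Y : Field E M} (hX : Md X x) (h : ∀ᶠ y in 𝓝 x, Y y = X y) :
    cov Y x = cov X x :=
  cov.isCovariantDerivativeOnUniv.congr_of_eventuallyEq (hX.congr h) hX univ_mem h

/-- `g` is the metric in the chart `e` -/
structure InCh (e : OpenPartialHomeomorph M E) (g : E → E →L[ℝ] E →L[ℝ] ℝ) : Prop where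
  mem : e ∈ maximalAtlas 𝓘(ℝ, E) ∞ M
  sm : ContDiffOn ℝ ∞ g e.target
  eq : ∀ y ∈ e.source, ∀ u v, inner ℝ (cf e u y) (cf e v y) = g (e y) u v

/-- the Christoffel symbols -/
def gam (cov : Conn E M) (e : OpenPartialHomeomorph M E) (x : M) (u v : E) : E :=
  dm E e x (cov (cf e v) x (cf e u x))

theorem cf_gam (he : e ∈ maximalAtlas 𝓘(ℝ, E) ∞ M) (hx : x ∈ e.source) (u v : E) :
    cf e (gam cov e x u v) x = cov (cf e v) x (cf e u x) := cf_dif he hx _

theorem InCh.cd (c : InCh e g) (hx : x ∈ e.source) : ContDiffAt ℝ 2 g (e x) :=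
  (c.sm.contDiffAt (e.open_target.mem_nhds (e.map_source hx))).of_le (by norm_cast)

theorem InCh.dg (c : InCh e g) (hx : x ∈ e.source) (u v w : E) :
    P211W.dg (cf e u) (cf e v) (cf e w) x = fderiv ℝ g (e x) u v w := by
  have h4 : HasFDerivAt (fun y => g y v w) (((fderiv ℝ g (e x)).flip v).flip w) (e x) := by
    simpa using ((((c.cd hx).differentiableAt (by norm_num)).hasFDerivAt.clm_apply
      (hasFDerivAt_const v _)).clm_apply (hasFDerivAt_const w _))
  refine d_cf c.mem hx h4 ?_ u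
  filter_upwards [e.open_source.mem_nhds hx] with y hy using c.eq y hy v w

theorem InCh.koszul (c : InCh e g) (h : IsLeviCivita cov) (hx : x ∈ e.source) (u v w : E) :
    2 * inner ℝ (cov (cf e v) x (cf e u x)) (cf e w x) =
      fderiv ℝ g (e x) u v w + fderiv ℝ g (e x) v u w - fderiv ℝ g (e x) w u v := by
  have he := c.mem
  rw [P211W.koszul h.torsion h.metric (sm_cf he hx u).md (sm_cf he hx v).md (sm_cf he hx w).md]
  unfold P211W.kz P211W.bg
  rw [cf_bracket he hx, cf_bracket he hx, cf_bracket he hx, c.dg hx, c.dg hx, c.dg hx,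
    inner_zero_left, inner_zero_left, inner_zero_left]
  ring

theorem InCh.chris (c : InCh e g) (h : IsLeviCivita cov) (hx : x ∈ e.source) (u v w : E) :
    2 * g (e x) (gam cov e x u v) w =
      fderiv ℝ g (e x) u v w + fderiv ℝ g (e x) v u w - fderiv ℝ g (e x) w u v := by
  rw [← c.eq x hx, cf_gam c.mem hx, c.koszul h hx]

theorem InCh.second (c : InCh e g) (h : IsLeviCivita cov) (hx : x ∈ e.source)
    {U V : Vec E M} {u v : E} (hU : ∀ᶠ y in 𝓝 x, U y = cf e u y)
    (hV : ∀ᶠ y in 𝓝 x, V y = cf e v y) (w s : E) :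
    inner ℝ (cov (fun q => cov V q (U q)) x (cf e s x)) (cf e w x) =
      (fderiv ℝ (fderiv ℝ g) (e x) s u v w + fderiv ℝ (fderiv ℝ g) (e x) s v u w
        - fderiv ℝ (fderiv ℝ g) (e x) s w u v) / 2
      - g (e x) (gam cov e x u v) (gam cov e x s w) := by
  have he := c.mem
  have hN : Md (fun q => cov V q (U q)) x := VF.mdiff (nabVF cov h.smooth U V) x
  have h1 : mvfderiv 𝓘(ℝ, E) (fun y => inner ℝ (cov V y (U y)) (cf e w y)) x (cf e s x) =
      inner ℝ (cov (fun q => cov V q (U q)) x (cf e s x)) (cf e w x)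
        + inner ℝ (cov V x (U x)) (cov (cf e w) x (cf e s x)) :=
    h.metric.mvfderiv_inner_eq (cf e s) hN (sm_cf he hx w).md
  have h2 : ∀ᶠ y in 𝓝 x, cov V y (U y) = cov (cf e v) y (cf e u y) := by
    filter_upwards [e.open_source.mem_nhds hx, hU, hV.eventually_nhds] with y hy h3 h4
    rw [cov_congr (sm_cf he hy v).md h4, h3]
  have hd : ∀ u a b, HasFDerivAt (fun y => fderiv ℝ g y u a b)
      ((((fderiv ℝ (fderiv ℝ g) (e x)).flip u).flip a).flip b) (e x) := fun u a b => by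
    simpa using (((((c.cd hx).fderiv_right (m := 1) (by norm_num)).differentiableAt
      (by norm_num)).hasFDerivAt.clm_apply (hasFDerivAt_const u _)).clm_apply
      (hasFDerivAt_const a _)).clm_apply (hasFDerivAt_const b _)
  have h3 := (((hd u v w).fun_add (hd v u w)).fun_sub (hd w u v)).const_mul (2⁻¹ : ℝ)
  have h4 := d_cf he hx (f := fun y => inner ℝ (cov V y (U y)) (cf e w y)) h3
    (by
      filter_upwards [e.open_source.mem_nhds hx, h2] with y hy h5
      rw [h5, ← c.koszul h hy u v w]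
      ring) s
  rw [h1, h2.self_of_nhds, ← cf_gam he hx, ← cf_gam he hx, c.eq x hx] at h4
  simp only [smul_apply, sub_apply, add_apply, smul_eq_mul, ContinuousLinearMap.flip_apply] at h4
  linarith

theorem IsLeviCivita.lc (h : IsLeviCivita cov) : IsLC cov :=
  ⟨h.smooth, fun X Y x => ((CovariantDerivative.torsion_eq_zero_iff cov).1 h.torsion)
      (VF.mdiff X x) (VF.mdiff Y x),
    fun X Y Z x => h.metric.mvfderiv_inner_eq X (VF.mdiff Y x) (VF.mdiff Z x)⟩

theorem exists_lc : ∃ cov : Conn E M, IsLeviCivita cov := by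
  obtain ⟨D, hD⟩ := P211W.exists_lc (E := E) (M := M)
  exact ⟨D, hD.smooth, hD.torsion, hD.metric⟩

theorem lin_congr (Φ : VF E M →ₗ[SF E M] SF E M) {p : M} {X X' : VF E M}
    (h : X p = X' p) : Φ X p = Φ X' p := by
  have h1 := lin_ptwise Φ (x := p) (Z := X - X')
    (by rw [ContMDiffSection.coe_sub, Pi.sub_apply, h, sub_self])
  rw [map_sub] at h1
  exact sub_eq_zero.1 h1

theorem t4_pt {T : VF E M → VF E M → VF E M → VF E M → SF E M} (h : IsT4 T)
    {X Y Z W X' Y' Z' W' : VF E M} {p : M} (hX : X p = X' p) (hY : Y p = Y' p)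
    (hZ : Z p = Z' p) (hW : W p = W' p) : T X Y Z W p = T X' Y' Z' W' p :=
  ((lin_congr ⟨⟨fun X => T X Y Z W, fun a b => h.add1 a b Y Z W⟩,
    fun a b => h.smul1 a b Y Z W⟩ hX).trans
    (lin_congr ⟨⟨fun Y => T X' Y Z W, fun a b => h.add2 X' a b Z W⟩,
      fun a b => h.smul2 a X' b Z W⟩ hY)).trans
    ((lin_congr ⟨⟨fun Z => T X' Y' Z W, fun a b => h.add3 X' Y' a b W⟩,
      fun a b => h.smul3 a X' Y' b W⟩ hZ).trans
      (lin_congr ⟨⟨fun W => T X' Y' Z' W, fun a b => h.add4 X' Y' Z' a b⟩,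
        fun a b => h.smul4 a X' Y' Z' b⟩ hW))

theorem curv_exu (hD : IsLeviCivita cov) : ∃! R : Four E M, IsCurv cov R := by
  choose s hs using fun (p : M) (a : Tg E p) => exists_ext (E := E) p a
  refine ⟨fun p a b c d => (lcOf hD.lc).Rm (s p a) (s p b) (s p c) (s p d) p,
    fun X Y Z W p => (t4_pt (lcOf hD.lc).isT4_Rm (hs p _) (hs p _) (hs p _) (hs p _)).trans
      (congrFun (riem_eq hD.lc X Y Z W) p).symm, fun R hR => ?_⟩
  funext p a b c d
  have h := hR (s p a) (s p b) (s p c) (s p d) p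
  rw [hs, hs, hs, hs] at h
  exact h.trans (congrFun (riem_eq hD.lc _ _ _ _) p)

theorem InCh.rm_eq (c : InCh e g) (h : IsLeviCivita cov) {R : Four E M} (hR : IsCurv cov R)
    (hx : x ∈ e.source) (p q r s : E) :
    R x (cf e p x) (cf e q x) (cf e r x) (cf e s x) =
      ((fderiv ℝ (fderiv ℝ g) (e x) p q r s + fderiv ℝ (fderiv ℝ g) (e x) p r q s
        - fderiv ℝ (fderiv ℝ g) (e x) p s q r) / 2 - g (e x) (gam cov e x q r) (gam cov e x p s))
      - ((fderiv ℝ (fderiv ℝ g) (e x) q p r s + fderiv ℝ (fderiv ℝ g) (e x) q r p s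
        - fderiv ℝ (fderiv ℝ g) (e x) q s p r) / 2
        - g (e x) (gam cov e x p r) (gam cov e x q s)) := by
  have he := c.mem
  obtain ⟨A, hA⟩ := exists_cf he hx p
  obtain ⟨B, hB⟩ := exists_cf he hx q
  obtain ⟨C, hC⟩ := exists_cf he hx r
  obtain ⟨D, hD⟩ := exists_cf he hx s
  have h1 := hR A B C D x
  have h2 : mlieBracket 𝓘(ℝ, E) A B x = 0 :=
    (EventuallyEq.mlieBracket_vectorField_eq hA hB).trans (cf_bracket he hx p q)
  unfold curv at h1
  rwa [h2, map_zero, sub_zero, inner_sub_left, hA.self_of_nhds, hB.self_of_nhds,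
    hC.self_of_nhds, hD.self_of_nhds, c.second h hx hB hC, c.second h hx hA hC] at h1

end

end Vale.Agent.P264R
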