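import Vale.Agent.P264F72.Defs
import Mathlib.Geometry.Manifold.VectorBundle.CovariantDerivative.Torsion
import Mathlib.Geometry.Manifold.VectorBundle.CovariantDerivative.Metric
import Mathlib.Analysis.InnerProductSpace.PiL2
import Mathlib.LinearAlgebra.Complex.FiniteDimensional

/-! # P264: the Riemannian metric of a Kähler form, its Levi-Civita connection and curvature -/

open scoped Manifold ContDiff
open Bundle

noncomputable section

namespace Vale.Agent.P264R

section
variable {V : Type} [NormedAddCommGroup V] [InnerProductSpace ℝ V] {ι : Type} [Fintype ι]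

/-- `Ric(u, v) = ∑ R(b_i, u, v, b_i)`, `b` an orthonormal basis. -/
def ricci (b : OrthonormalBasis ι ℝ V) (R : V → V → V → V → ℝ) (u v : V) : ℝ :=
  ∑ i, R (b i) u v (b i)

/-- The Riemannian scalar curvature `∑ Ric(b_j, b_j)`. -/
def scalar (b : OrthonormalBasis ι ℝ V) (R : V → V → V → V → ℝ) : ℝ :=
  ∑ j, ricci b R (b j) (b j)

end

section
variable (E : Type) [NormedAddCommGroup E] [NormedSpace ℝ E] {X : Type} [TopologicalSpace X]
  [ChartedSpace E X]

/-- The tangent space. -/
abbrev Tg (x : X) : Type := TangentSpace 𝓘(ℝ, E) x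

variable (X)

/-- Scalar products on the tangent spaces. -/
abbrev Met : Type := RiemannianBundle fun x : X => Tg E x

/-- Functions of four tangent vectors. -/
abbrev Four : Type := (x : X) → Tg E x → Tg E x → Tg E x → Tg E x → ℝ

variable [IsManifold 𝓘(ℝ, E) ∞ X]

/-- Connections on the tangent bundle. -/
abbrev Conn : Type := CovariantDerivative 𝓘(ℝ, E) E (Tg E : X → Type)

/-- Smooth vector fields. -/
abbrev Vec : Type := Cₛ^∞⟮𝓘(ℝ, E); E, (Tg E : X → Type)⟯

variable [Met E X]

/-- The scalar products depend smoothly on the point. -/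
abbrev SmoothMet : Prop := IsContMDiffRiemannianBundle 𝓘(ℝ, E) ∞ E fun x : X => Tg E x

variable {E X}

/-- `g(∇_A ∇_B C - ∇_B ∇_A C - ∇_[A,B] C, D)` at `x`. -/
def curv (cov : Conn E X) (A B C D : (q : X) → Tg E q) (x : X) : ℝ :=
  inner ℝ (cov (fun q => cov C q (B q)) x (A x) - cov (fun q => cov C q (A q)) x (B x) -
    cov C x (VectorField.mlieBracket 𝓘(ℝ, E) A B x)) (D x)

/-- `R` is the curvature tensor of the connection. -/
def IsCurv (cov : Conn E X) (R : Four E X) : Prop :=
  ∀ (A B C D : Vec E X) (x : X), R x (A x) (B x) (C x) (D x) = curv cov A B C D x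

/-- A Levi-Civita connection: smooth, torsion free and compatible with the metric. -/
structure IsLeviCivita [FiniteDimensional ℝ E] [SmoothMet E X] (cov : Conn E X) : Prop where
  smooth : cov.ContMDiffCovariantDerivative ∞
  torsion : cov.torsion = 0
  metric : CovariantDerivative.IsMetricCompatible (V := (Tg E : X → Type)) cov

end

open Vale.Agent.P272.K (Cm)
open Vale.Agent.P264F

variable {n : ℕ} {X : Type} [TopologicalSpace X] [ChartedSpace (Cm n) X]

/-- The metric is `g(u, v) = w(u, J v)`. -/
def IsMetricOf [Met (Cm n) X] (w : Form n X) : Prop :=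
  ∀ (x : X) (u v : Tan n x), inner ℝ u v = w x ![u, J v]

/-- `Ric(w)(u, v) = Ric_g(J u, v)` and `S(w)` is half the scalar curvature of `g`. -/
def RicciEq [Met (Cm n) X] (w : Form n X) (R : Four (Cm n) X) : Prop :=
  ∀ (x : X) (ι : Type) [Fintype ι] (b : OrthonormalBasis ι ℝ (Tan n x)),
    (∀ u v, ric w x ![u, v] = ricci b (R x) (J u) v) ∧ scal w x = scalar b (R x) / 2

/-- `g = w(·, J ·)` is a smooth Riemannian metric, its Levi-Civita connection and curvature tensor
exist, and `Ric(w)`, `S(w)` are its Ricci form and half its scalar curvature. -/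
def Riemannian [IsManifold 𝓘(ℝ, Cm n) ∞ X] (w : Form n X) : Prop :=
  (∃ (_ : Met (Cm n) X) (_ : SmoothMet (Cm n) X), IsMetricOf w) ∧
  ∀ [Met (Cm n) X] [SmoothMet (Cm n) X], IsMetricOf w →
    (∃ cov : Conn (Cm n) X, IsLeviCivita cov) ∧ ∀ cov : Conn (Cm n) X, IsLeviCivita cov →
      (∃! R, IsCurv cov R) ∧ ∀ R, IsCurv cov R → RicciEq w R

end Vale.Agent.P264R

end
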