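import Vale.Agent.P264R35.Alg
import Vale.Agent.P272.K.C2.ChernLu

/-! Real bilinear forms and complex matrices; the real Hessian of `log det`. -/

set_option maxSynthPendingDepth 3

namespace Vale.Agent.P264R

open Complex Matrix Filter Vale.Agent.P272.K Vale.Agent.P272.K.C2
open scoped Topology ContDiff ComplexOrder

noncomputable section

variable {n : ℕ} {ι : Type} [Fintype ι]

/-- the real bilinear form `2 Re Σ β_{jk} u_j conj v_k` -/
def H (β : Matrix (Fin n) (Fin n) ℂ) (u v : Cm n) : ℝ := 2 * (u ⬝ᵥ β *ᵥ star v).re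

theorem H_eq (β : Matrix (Fin n) (Fin n) ℂ) (u v : Cm n) :
    H β u v = 2 * (∑ j, ∑ k, u j * star (v k) * β j k).re := by
  simp only [H, dotProduct, mulVec, Finset.mul_sum, Pi.star_apply]
  congr 2
  exact Finset.sum_congr rfl fun j _ => Finset.sum_congr rfl fun k _ => by ring

variable {G : Cm n →L[ℝ] Cm n →L[ℝ] ℝ} {a : ι → Cm n} {h : Matrix (Fin n) (Fin n) ℂ}

theorem H_vecMul (β γ : Matrix (Fin n) (Fin n) ℂ) (u v : Cm n) :
    H γ (u ᵥ* β) v = H (β * γ) u v := by
  rw [H, H, ← mulVec_mulVec, dotProduct_mulVec u]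

theorem T0 (f : Fr G a) (hG : ∀ u v, G u v = H h u v) (h0 : h.det ≠ 0) (j k : Fin n) :
    ∑ i, a i j * star (a i k) = h⁻¹ k j := by
  have h1 : ∀ (c : ℂ) (v : Cm n), G (Pi.single k c ᵥ* h⁻¹) v = 2 * (c * star (v k)).re := by
    intro c v
    rw [hG, H_vecMul, nonsing_inv_mul _ (isUnit_iff_ne_zero.2 h0), H, one_mulVec,
      single_dotProduct]
    rfl
  have h2 := congrFun (f.exp (Pi.single k 1 ᵥ* h⁻¹)) j
  have h3 := congrFun (f.exp (Pi.single k I ᵥ* h⁻¹)) j
  simp only [h1] at h2 h3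
  simp only [Finset.sum_apply, Pi.smul_apply, single_vecMul, real_smul, smul_eq_mul,
    row_apply, one_mul] at h2 h3
  have h4 : 2 * ∑ i, a i j * star (a i k) = h⁻¹ k j - I * (I * h⁻¹ k j) := by
    conv_rhs => rw [← h3, ← h2]
    rw [Finset.mul_sum, Finset.mul_sum, ← Finset.sum_sub_distrib]
    refine Finset.sum_congr rfl fun i _ => ?_
    apply Complex.ext <;> simp <;> ring
  rw [← mul_assoc, I_mul_I] at h4
  linear_combination h4 / 2

theorem T1 (f : Fr G a) (hG : ∀ u v, G u v = H h u v) (h0 : h.det ≠ 0)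
    (β : Matrix (Fin n) (Fin n) ℂ) : ∑ i, H β (a i) (a i) = 2 * (h⁻¹ * β).trace.re := by
  simp only [H_eq, ← Finset.mul_sum, ← re_sum]
  congr 2
  rw [Finset.sum_comm, trace_mul_comm, trace]
  refine Finset.sum_congr rfl fun j _ => ?_
  rw [Finset.sum_comm, diag_apply, mul_apply]
  refine Finset.sum_congr rfl fun k _ => ?_
  rw [← Finset.sum_mul, T0 f hG h0, mul_comm]

theorem T2 (f : Fr G a) (hG : ∀ u v, G u v = H h u v) (h0 : h.det ≠ 0)
    {P Q : Cm n →L[ℝ] Cm n →L[ℝ] ℝ} {β γ : Matrix (Fin n) (Fin n) ℂ}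
    (hP : ∀ u v, P u v = H β u v) (hQ : ∀ u v, Q u v = H γ u v) :
    ∑ i, ∑ k, P (a i) (a k) * Q (a k) (a i) = 2 * (h⁻¹ * (β * h⁻¹ * γ)).trace.re := by
  rw [← T1 f hG h0]
  refine Finset.sum_congr rfl fun i _ => ?_
  have h1 := congrArg (fun v => Q v (a i)) (f.exp (a i ᵥ* (β * h⁻¹)))
  simp only [map_sum, _root_.sum_apply, map_smul, _root_.smul_apply, smul_eq_mul] at h1
  rw [← H_vecMul, ← hQ, ← h1]
  refine Finset.sum_congr rfl fun k _ => ?_
  rw [hG, H_vecMul, nonsing_inv_mul_cancel_right _ _ (isUnit_iff_ne_zero.2 h0), hP]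

/-- real directional derivative of a matrix function -/
def DR (v : Cm n) (M : Cm n → Matrix (Fin n) (Fin n) ℂ) (z : Cm n) : Matrix (Fin n) (Fin n) ℂ :=
  Matrix.of fun i j => DD 1 0 v 0 (fun y => M y i j) z

variable {M N : Cm n → Matrix (Fin n) (Fin n) ℂ} {z : Cm n}

theorem DD_eq (v : Cm n) (f : Cm n → ℂ) (z : Cm n) : DD 1 0 v 0 f z = fderiv ℝ f z v := by
  simp [DD]

theorem MC.DR {m m' : WithTop ℕ∞} (hM : MC m M z) (hm : m' + 1 ≤ m) (v : Cm n) :
    MC m' (DR v M) z := fun i j => DD_contDiffAt 1 0 v 0 (hM i j) hm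

theorem DR_mul (hM : MD M z) (hN : MD N z) (v : Cm n) :
    DR v (fun y => M y * N y) z = DR v M z * N z + M z * DR v N z := by
  ext i j
  simp only [DR, of_apply, mul_apply, Matrix.add_apply]
  rw [DD_sum _ _ _ _ _ fun k _ => (hM i k).fun_mul (hN k j), ← Finset.sum_add_distrib]
  exact Finset.sum_congr rfl fun k _ => DD_mul _ _ _ _ (hM i k) (hN k j)

theorem DR_inv (hA : MC 1 M z) (h0 : (M z).det ≠ 0) (v : Cm n) :
    DR v (fun y => (M y)⁻¹) z = -((M z)⁻¹ * DR v M z * (M z)⁻¹) := by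
  have h1 : DR v (fun y => M y * (M y)⁻¹) z = 0 := by
    ext i j
    refine (DD_congr _ _ _ _ ?_).trans (DD_const _ _ _ _ ((1 : Matrix (Fin n) (Fin n) ℂ) i j))
    filter_upwards [det_ne_zero_eventually (hA.mono (by norm_num)) h0] with y hy
    rw [mul_nonsing_inv _ (isUnit_iff_ne_zero.2 hy)]
  rw [DR_mul (hA.md (by norm_num)) ((hA.inv h0).md (by norm_num))] at h1
  have h2 : (M z)⁻¹ * (DR v M z * (M z)⁻¹ + M z * DR v (fun y => (M y)⁻¹) z) = 0 := by
    rw [h1, Matrix.mul_zero]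
  rw [Matrix.mul_add, ← Matrix.mul_assoc (M z)⁻¹ (M z),
    nonsing_inv_mul _ (isUnit_iff_ne_zero.2 h0), Matrix.one_mul, ← Matrix.mul_assoc] at h2
  exact eq_neg_of_add_eq_zero_right h2

theorem DD_trace (hM : MD M z) (v : Cm n) :
    DD 1 0 v 0 (fun y => (M y).trace) z = (DR v M z).trace :=
  DD_sum _ _ _ _ _ fun k _ => hM k k

theorem fderiv_H (hM : MD M z) (u a c : Cm n) :
    fderiv ℝ (fun y => H (M y) a c) z u = H (DR u M z) a c := by
  have h1 : HasFDerivAt (fun y => 2 * (∑ j, ∑ k, a j * star (c k) * M y j k).re)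
      ((2 : ℝ) • reCLM.comp (∑ j, ∑ k, (a j * star (c k)) • fderiv ℝ (fun y => M y j k) z)) z :=
    (reCLM.hasFDerivAt.comp z (HasFDerivAt.fun_sum fun j _ => HasFDerivAt.fun_sum fun k _ =>
      (hM j k).hasFDerivAt.const_mul _)).const_mul 2
  simp only [H_eq, h1.fderiv, DR, of_apply, DD_eq, _root_.smul_apply, ContinuousLinearMap.comp_apply,
    _root_.sum_apply, smul_eq_mul, reCLM_apply]

/-- `log det` as a complex valued function -/
def ld (M : Cm n → Matrix (Fin n) (Fin n) ℂ) (y : Cm n) : ℂ := ((Real.log (M y).det.re : ℝ) : ℂ)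

theorem hess_ld (hM : MC 2 M z) (hpos : ∀ᶠ y in 𝓝 z, (M y).PosDef) (u v : Cm n) :
    fderiv ℝ (fun y => fderiv ℝ (ld M) y v) z u = ((M z)⁻¹ * DR u (DR v M) z).trace
      - ((M z)⁻¹ * (DR u M z * (M z)⁻¹ * DR v M z)).trace := by
  have one : (1 : WithTop ℕ∞) ≠ 0 := by norm_num
  have hM1 : MC 1 M z := hM.mono (by norm_num)
  have h0 : (M z).det ≠ 0 := posDef_det_ne_zero hpos.self_of_nhds
  have e : (fun y => fderiv ℝ (ld M) y v) =ᶠ[𝓝 z] fun y => ((M y)⁻¹ * DR v M y).trace := by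
    filter_upwards [MC.eventually (q := 1) hM1, hpos.eventually_nhds] with y h1 h2
    have h3 : (M y).PosDef := h2.self_of_nhds
    have hd : DifferentiableAt ℝ (fun y => (M y).det.re) y :=
      reCLM.differentiableAt.comp y (h1.det.differentiableAt one)
    rw [← DD_eq]
    unfold ld
    rw [DD_comp_real _ _ _ _ (Real.hasDerivAt_log (det_re_pos h3).ne') hd]
    have e2 : (fun y => (((M y).det.re : ℝ) : ℂ)) =ᶠ[𝓝 y] fun y => (M y).det := by
      filter_upwards [h2] with y' h4 using det_re_eq h4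
    rw [DD_congr _ _ _ _ e2, DD_det _ _ _ _ (h1.md one), ofReal_inv, det_re_eq h3, Matrix.inv_def,
      Ring.inverse_eq_inv', Matrix.smul_mul, trace_smul, smul_eq_mul]
    rfl
  have hi : MC 1 (fun y => (M y)⁻¹) z := hM1.inv h0
  have hj : MC 1 (DR v M) z := MC.DR hM (by norm_num) v
  rw [e.fderiv_eq, ← DD_eq, DD_trace ((hi.mul hj).md one), DR_mul (hi.md one) (hj.md one),
    DR_inv hM1 h0, trace_add, Matrix.neg_mul, trace_neg]
  simp only [Matrix.mul_assoc]
  ring

theorem decomp (u : Cm n) :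
    u = ∑ j, ((u j).re • (Pi.single j 1 : Cm n) + (u j).im • (Pi.single j I : Cm n)) := by
  ext k
  simp only [Finset.sum_apply, Pi.add_apply, Pi.smul_apply, real_smul, Pi.single_apply, mul_ite,
    mul_one, mul_zero, Finset.sum_add_distrib, Finset.sum_ite_eq, Finset.mem_univ, if_true,
    re_add_im]

theorem H_cHess {f : Cm n → ℝ} (hf : ContDiffAt ℝ 2 f z) (u v : Cm n) :
    H (cHess f z) u v = (fderiv ℝ (fderiv ℝ f) z u v
      + fderiv ℝ (fderiv ℝ f) z (I • u) (I • v)) / 2 := by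
  have hd : DifferentiableAt ℝ (fderiv ℝ f) z :=
    (hf.fderiv_right (m := 1) (by norm_num)).differentiableAt (by norm_num)
  set S := fderiv ℝ (fderiv ℝ f) z with hS
  have h1 : ∀ j k, cHess f z j k = ((S (Pi.single j 1) (Pi.single k 1)
      + S (Pi.single j I) (Pi.single k I) : ℝ) + I * (S (Pi.single j 1) (Pi.single k I)
      - S (Pi.single j I) (Pi.single k 1) : ℝ)) / 4 := by
    intro j k
    have e : dzb k (fun y => (f y : ℂ)) =ᶠ[𝓝 z] fun y =>
        ((fderiv ℝ f y (Pi.single k 1) : ℝ) + I * (fderiv ℝ f y (Pi.single k I) : ℝ)) / 2 := by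
      filter_upwards [eventually_contDiffAt (m := 1) (hf.of_le (by norm_num))] with y hy
      have h2 := (ofRealCLM.hasFDerivAt.comp y
        (hy.differentiableAt (by norm_num)).hasFDerivAt).fderiv
      unfold dzb
      rw [show (fun y => (f y : ℂ)) = ofRealCLM ∘ f from rfl, h2]
      rfl
    have h3 : ∀ w, HasFDerivAt (fun y => ((fderiv ℝ f y w : ℝ) : ℂ))
        (ofRealCLM.comp (S.flip w)) z := fun w =>
      ofRealCLM.hasFDerivAt.comp z (by
        simpa using hd.hasFDerivAt.clm_apply (hasFDerivAt_const w z))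
    have h4 := ((h3 (Pi.single k 1)).fun_add ((h3 (Pi.single k I)).const_mul I)).mul_const
      (2⁻¹ : ℂ)
    rw [cHess_apply, dz_congr j e]
    unfold dz
    simp only [div_eq_mul_inv, h4.fderiv, _root_.smul_apply, _root_.add_apply, ContinuousLinearMap.comp_apply,
      ContinuousLinearMap.flip_apply, ofRealCLM_apply, smul_eq_mul]
    push_cast
    linear_combination (-(S (Pi.single j I) (Pi.single k I) : ℂ) / 4) * I_mul_I
  have h6 : ∀ p q : Cm n, S p q = ∑ j, ∑ k, S ((p j).re • (Pi.single j 1 : Cm n)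
      + (p j).im • (Pi.single j I : Cm n)) ((q k).re • (Pi.single k 1 : Cm n)
      + (q k).im • (Pi.single k I : Cm n)) := fun p q => by
    conv_lhs => rw [decomp p, decomp q]
    simp only [map_sum, _root_.sum_apply]
    exact Finset.sum_comm
  rw [H_eq, h6 u, h6 (I • u), ← Finset.sum_add_distrib, Finset.sum_div, re_sum, Finset.mul_sum]
  refine Finset.sum_congr rfl fun j _ => ?_
  rw [← Finset.sum_add_distrib, Finset.sum_div, re_sum, Finset.mul_sum]
  refine Finset.sum_congr rfl fun k _ => ?_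
  rw [h1]
  simp only [map_add, map_smul, _root_.add_apply, _root_.smul_apply, smul_eq_mul, Pi.smul_apply,
    I_mul_re, I_mul_im]
  simp
  ring

end

end Vale.Agent.P264R
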