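import Vale.Agent.P272.K.Stmt
import Mathlib.Analysis.Calculus.DifferentialForm.Basic
import Mathlib.Geometry.Manifold.VectorBundle.CovariantDerivative.Torsion
import Mathlib.Geometry.Manifold.VectorBundle.CovariantDerivative.Metric
import Mathlib.Analysis.InnerProductSpace.PiL2
import Mathlib.LinearAlgebra.Complex.FiniteDimensional

/-!
# P264: Kähler forms, scalar curvature, the Calabi flow and its maximal time
Forms are fields of alternating forms on the real tangent spaces of a complex manifold `X`.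
-/

open scoped Manifold ContDiff
open Set Complex Bundle

noncomputable section

namespace Vale.Agent.P264S

open Vale.Agent.P272.K (Cm IsIntegral)

section Forms

variable (E : Type) [NormedAddCommGroup E] [NormedSpace ℂ E]

/-- Real alternating 2-forms on `E`. -/
abbrev Two : Type := E [⋀^Fin 2]→L[ℝ] ℝ

variable {E}

/-- The value `α(u, v)`. -/
def ev (α : Two E) (u v : E) : ℝ := α ![u, v]

/-- The 1-form `df ∘ J`. -/
def dJ (f : E → ℝ) (y : E) : E [⋀^Fin 1]→L[ℝ] ℝ :=
  ContinuousAlternatingMap.ofSubsingleton ℝ E ℝ 0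
    ((fderiv ℝ f y).comp (I • ContinuousLinearMap.id ℝ E))

/-- `i∂∂̄f = -½ d(df ∘ J)` at `z`. -/
def ddb (f : E → ℝ) (z : E) : Two E := (-2⁻¹ : ℝ) • extDeriv (dJ f) z

variable (E) {X : Type} [TopologicalSpace X] [ChartedSpace E X]

/-- The real tangent space; Mathlib identifies it with `E` by the chart at `x`. -/
abbrev Tan (x : X) : Type := TangentSpace 𝓘(ℝ, E) x

/-- `u` is a smooth function on `X`. -/
def Smooth (u : X → ℝ) : Prop := ContMDiff 𝓘(ℝ, E) 𝓘(ℝ, ℝ) ∞ u

/-- `φ` is smooth on `S × X`. -/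
def SmoothOn (φ : ℝ → X → ℝ) (S : Set ℝ) : Prop :=
  ContMDiffOn (𝓘(ℝ, ℝ).prod 𝓘(ℝ, E)) 𝓘(ℝ, ℝ) ∞ (fun p : ℝ × X => φ p.1 p.2) (S ×ˢ univ)

variable (X)

/-- `X` is a smooth real manifold. -/
abbrev RealSmooth : Prop := IsManifold 𝓘(ℝ, E) ∞ X

/-- Real 2-forms on `X`. -/
abbrev Form : Type := (x : X) → Tan E x [⋀^Fin 2]→L[ℝ] ℝ

variable {X}

/-- The form `i∂∂̄u` on `X`. -/
def ddbar (u : X → ℝ) : Form E X := fun x =>
  ddb (E := E) (fun z => u ((chartAt E x).symm z)) (chartAt E x x)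

variable {E}

/-- `w + i∂∂̄u`. -/
def pert (w : Form E X) (u : X → ℝ) : Form E X := w + ddbar E u

/-- The complex structure: multiplication by `i`. -/
def J {x : X} (v : Tan E x) : Tan E x := (I • (show E from v) : E)

/-- The value `w(u, v)` at `x`. -/
def val (w : Form E X) (x : X) (u v : Tan E x) : ℝ := w x ![u, v]

/-- The differential of the inverse of the chart `e`. -/
def dif (e : OpenPartialHomeomorph X E) (z : E) : E →L[ℝ] Tan E (e.symm z) :=
  mfderiv 𝓘(ℝ, E) 𝓘(ℝ, E) e.symm z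

/-- The form `w` in the chart `e`: its pull-back by `e⁻¹`. -/
def loc (w : Form E X) (e : OpenPartialHomeomorph X E) (z : E) : Two E :=
  (w (e.symm z)).compContinuousLinearMap (dif e z)

/-- A smooth Kähler form: smooth, closed, `J`-invariant and positive. -/
structure IsKahler (w : Form E X) : Prop where
  smooth : ∀ e ∈ atlas E X, ContDiffOn ℝ ∞ (loc w e) e.target
  closed : ∀ e ∈ atlas E X, ∀ z ∈ e.target, extDeriv (loc w e) z = 0
  inv : ∀ x u v, val w x (J u) (J v) = val w x u v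
  pos : ∀ x v, v ≠ 0 → 0 < val w x v (J v)

/-- In the chart `e`, `J` is multiplication by `i` and `i∂∂̄u` is given by the same formula. -/
def InChart (e : OpenPartialHomeomorph X E) (z : E) : Prop :=
  (∀ v : E, dif e z (I • v) = J (dif e z v)) ∧
    ∀ u : X → ℝ, Smooth E u → loc (ddbar E u) e z = ddb (fun y => u (e.symm y)) z

section Riemann

variable (E X)

/-- Scalar products on the tangent spaces. -/
abbrev Met : Type := RiemannianBundle fun x : X => Tan E x

/-- Functions of four tangent vectors. -/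
abbrev Four : Type := (x : X) → Tan E x → Tan E x → Tan E x → Tan E x → ℝ

variable {E X} in
/-- The scalar product is `g(u, v) = w(u, J v)`. -/
def IsMetricOf [Met E X] (w : Form E X) : Prop :=
  ∀ (x : X) (u v : Tan E x), inner ℝ u v = val w x u (J v)

variable {E X} in
/-- `ρ(u, v) = Ric(J u, v)` and `s` is half the scalar curvature, where
`Ric(u, v) = ∑ R(b_i, u, v, b_i)` and `scal = ∑ Ric(b_j, b_j)`, `b` any orthonormal basis. -/
def IsRicci [Met E X] (R : Four E X) (ρ : Form E X) (s : X → ℝ) : Prop :=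
  ∀ (x : X) (ι : Type) [Fintype ι] (b : OrthonormalBasis ι ℝ (Tan E x)) (a : ι → Tan E x), a = b →
    (∀ u v, val ρ x u v = ∑ i, R x (a i) (J u) v (a i)) ∧
      s x = (∑ j, ∑ i, R x (a i) (a j) (a j) (a i)) / 2

variable [RealSmooth E X]

/-- Connections on the tangent bundle. -/
abbrev Conn : Type := CovariantDerivative 𝓘(ℝ, E) E (Tan E : X → Type)

/-- Smooth vector fields. -/
abbrev Vec : Type := Cₛ^∞⟮𝓘(ℝ, E); E, (Tan E : X → Type)⟯

variable [Met E X]

/-- The scalar products depend smoothly on the point. -/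
abbrev SmoothMet : Prop := IsContMDiffRiemannianBundle 𝓘(ℝ, E) ∞ E fun x : X => Tan E x

variable {E X}

/-- `g(∇_A ∇_B C - ∇_B ∇_A C - ∇_[A,B] C, D)` at `x`. -/
def curv (cov : Conn E X) (A B C D : (q : X) → Tan E q) (x : X) : ℝ :=
  inner ℝ (cov (fun q => cov C q (B q)) x (A x) - cov (fun q => cov C q (A q)) x (B x) -
    cov C x (VectorField.mlieBracket 𝓘(ℝ, E) A B x)) (D x)

/-- `R` is the curvature tensor of the connection. -/
def IsCurv (cov : Conn E X) (R : Four E X) : Prop :=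
  ∀ (A B C D : Vec E X) (x : X), R x (A x) (B x) (C x) (D x) = curv cov A B C D x

variable [FiniteDimensional ℂ E]

/-- A Levi-Civita connection: smooth, torsion free and compatible with the metric. -/
structure IsLeviCivita [SmoothMet E X] (cov : Conn E X) : Prop where
  smooth : cov.ContMDiffCovariantDerivative ∞
  torsion : cov.torsion = 0
  metric : CovariantDerivative.IsMetricCompatible (V := (Tan E : X → Type)) cov

omit [Met E X] in
/-- `g = w(·, J ·)` is a smooth Riemannian metric, its Levi-Civita connection and curvature tensor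
exist, `ρ` is its Ricci form and `s` is half its scalar curvature. -/
def Riemannian (w ρ : Form E X) (s : X → ℝ) : Prop :=
  (∃ (_ : Met E X) (_ : SmoothMet E X), IsMetricOf w) ∧
  ∀ [Met E X] [SmoothMet E X], IsMetricOf w → (∃ cov : Conn E X, IsLeviCivita cov) ∧
    ∀ cov : Conn E X, IsLeviCivita cov → (∃! R, IsCurv cov R) ∧ ∀ R, IsCurv cov R → IsRicci R ρ s

end Riemann

end Forms

variable {n : ℕ}

/-- The coefficients `g_{j k̄}` of a real `(1,1)`-form `α = i ∑ g_{j k̄} dz_j ∧ dz̄_k`. -/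
def mat (α : Two (Cm n)) : Matrix (Fin n) (Fin n) ℂ :=
  Matrix.of fun j k =>
    (ev α (Pi.single j 1) (Pi.single k I) - I * ev α (Pi.single j 1) (Pi.single k 1)) / 2

/-- `tr_α ρ = ∑ g^{j k̄} ρ_{j k̄}`. -/
def tr (α ρ : Two (Cm n)) : ℝ := ((mat α)⁻¹ * mat ρ).trace.re

/-- The real basis `∂/∂x_1, ∂/∂y_1, …, ∂/∂x_n, ∂/∂y_n` of `ℂⁿ`. -/
def bas (p : Fin n × Fin 2) : Cm n := Pi.single p.1 (I ^ (p.2 : ℕ))

/-- The value of `αⁿ = α ∧ … ∧ α` on this basis: `αⁿ = top α dx_1 ∧ dy_1 ∧ … ∧ dx_n ∧ dy_n`. -/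
def top (α : Two (Cm n)) : ℝ :=
  (∑ σ : Equiv.Perm (Fin n × Fin 2),
    ((Equiv.Perm.sign σ : ℤ) : ℝ) * ∏ i, ev α (bas (σ (i, 0))) (bas (σ (i, 1)))) / 2 ^ n

variable {X : Type} [TopologicalSpace X] [ChartedSpace (Cm n) X]

/-- `i∂∂̄ (-log (wⁿ / dx dy))` in the chart `e`. -/
def ricIn (w : Form (Cm n) X) (e : OpenPartialHomeomorph X (Cm n)) (z : Cm n) : Two (Cm n) :=
  -ddb (fun y => Real.log (top (loc w e y))) z

/-- The Ricci form `Ric(w) = -i∂∂̄ log (wⁿ / dx dy)`. -/
def ric (w : Form (Cm n) X) : Form (Cm n) X := fun x =>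
  ricIn w (chartAt (Cm n) x) (chartAt (Cm n) x x)

/-- The scalar curvature `S(w) = tr_w Ric(w)`. -/
def scal (w : Form (Cm n) X) (x : X) : ℝ := tr (w x) (ric w x)

/-- `s = ∫ S(w) wⁿ / ∫ wⁿ`. -/
def IsAvg (w : Form (Cm n) X) (s : ℝ) : Prop :=
  ∃ A V : ℝ, IsIntegral (fun e z => scal w (e.symm z) * top (loc w e z)) A ∧
    IsIntegral (fun e z => top (loc w e z)) V ∧ 0 < V ∧ s = A / V

/-- The time interval `[0,T)`, `0 ≤ T ≤ ∞`. -/
def Time (T : ENNReal) : Set ℝ := {t | 0 ≤ t ∧ ENNReal.ofReal t < T}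

/-- `φ` is a smooth solution on `[0,T)` of the Calabi flow from `w` with the constant `s`:
`w + i∂∂̄φ(t)` is a Kähler form, `φ(0) = 0`, `∂φ/∂t = S(w + i∂∂̄φ(t)) - s`. -/
structure IsFlow (w : Form (Cm n) X) (s : ℝ) (T : ENNReal) (φ : ℝ → X → ℝ) : Prop where
  smooth : SmoothOn (Cm n) φ (Time T)
  init : ∀ x, φ 0 x = 0
  kahler : ∀ t ∈ Time T, IsKahler (pert w (φ t))
  eqn : ∀ t ∈ Time T, ∀ x, HasDerivWithinAt (fun τ => φ τ x) (scal (pert w (φ t)) x - s) (Time T) t

/-- `φ` is the maximal smooth solution and `[0,T)` is its interval: every smooth solution is a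
restriction of it. -/
def IsMaximal (w : Form (Cm n) X) (s : ℝ) (T : ENNReal) (φ : ℝ → X → ℝ) : Prop :=
  IsFlow w s T φ ∧ ∀ T' ψ, IsFlow w s T' ψ → T' ≤ T ∧ ∀ t ∈ Time T', ψ t = φ t

variable (n X) in
/-- The chart at `x` plays no role: in every chart `J` is multiplication by `i`, `i∂∂̄u` and
`Ric(w)` are given by the same formulas, `w = i ∑ g_{j k̄} dz_j ∧ dz̄_k` and `wⁿ > 0`. -/
def Charts : Prop :=
  ∀ e ∈ atlas (Cm n) X, ∀ z ∈ e.target, InChart e z ∧
    ∀ w : Form (Cm n) X, IsKahler w → 0 < top (loc w e z) ∧ loc (ric w) e z = ricIn w e z ∧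
      ∀ u v : Cm n, (ev (loc w e z) u v : ℂ) = I * ∑ j, ∑ k, mat (loc w e z) j k *
        (u j * starRingEnd ℂ (v k) - v j * starRingEnd ℂ (u k))

/-- `P` holds for all compact connected complex manifolds. -/
def ForAll (P : ∀ (n : ℕ) (X : Type) [TopologicalSpace X] [ChartedSpace (Cm n) X], Prop) : Prop :=
  ∀ (n : ℕ) (X : Type) [TopologicalSpace X] [T2Space X] [CompactSpace X] [ConnectedSpace X]
    [ChartedSpace (Cm n) X] [IsManifold 𝓘(ℂ, Cm n) ω X], P n X

end Vale.Agent.P264S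

end
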